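import Vale.Agent.P011UT6.Sl2
import Vale.Agent.P011UT4.Kit

/-!
Anisotropic forms have no nilpotent elements in the Lie algebra.
-/

set_option autoImplicit false
set_option linter.all false

namespace Vale.Agent.P011UT6

open Matrix Module Vale.Agent.P011L Vale.Agent.P183CH Vale.Agent.P183CH.Chev Vale.Agent.P011U
  Vale.Agent.P011UT4
open IsNilpotent hiding pow_succ

theorem rho_exp {k E : Type} [Field k] [Field E] [CharZero E] {D : Chev} {m : ℕ}
    {b : Fin m → D.Mat E} {ρ : D.grp E →* Matrix (Fin m) (Fin m) E} {f : k →+* E}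
    {M : Fin m → Matrix (Fin m) (Fin m) k} (hb : Bs b) (hM : Sc f b M) (hρ : Rp b ρ)
    {x : Fin m → E} (nX : IsNilpotent (co b x)) {g : D.grp E} (hg : g.1.1 = exp (co b x)) :
    IsNilpotent (adm (fun a => (M a).map f) x) ∧ ρ g = exp (adm (fun a => (M a).map f) x) := by
  have e : ad E (co b x) ∘ₗ co b = co b ∘ₗ toLinAlgEquiv' (adm (fun a => (M a).map f) x) :=
    LinearMap.ext fun y => (ad_app _ _).trans (hM.co x y)
  have n1 : IsNilpotent (adm (fun a => (M a).map f) x) := by
    obtain ⟨N, hN⟩ := ad_nil (K := E) nX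
    refine ⟨N, mat_ext hb fun y => ?_⟩
    have := LinearMap.congr_fun (End.commute_pow_left_of_commute e N) y
    rw [hN, ← map_pow] at this
    rw [zero_mulVec, map_zero]
    exact this.symm
  refine ⟨n1, mat_ext hb fun y => ?_⟩
  have := LinearMap.congr_fun (End.commute_exp_left_of_commute (n1.map _) (ad_nil nX) e) y
  rw [← map_exp n1, LinearMap.comp_apply, exp_ad nX] at this
  rw [← hρ.co, Ad_apply, Units.inv_eq_of_mul_eq_one_right (hg ▸ exp_mul_exp_neg_self nX), hg]
  exact this

theorem nil (kil : KIL) (sim : SIM) (ex : EXP) (cen : CEN) : NIL := by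
  intro k K _ _ _ _ _ D hD T F m b M ρ r h hA y ny
  by_contra y0
  have : CharZero K := charZero_of_injective_algebraMap (algebraMap k K).injective
  have : IsSepClosed K := IsSepClosure.sep_closed k
  obtain ⟨s1, s2, s3, s4⟩ := sim k K D hD T F m b M ρ r h
  obtain ⟨p, q, e1, e2, e3⟩ := (kil k _ M s1 s2 s3 s4).2.2 y y0 ny
  have hb := (bs_map (algebraMap F K) b).2 h.bs
  have hM := h.sc.map (algebraMap F K)
  rw [← IsScalarTower.algebraMap_eq] at hM
  let c : (Fin m → k) → D.Mat K := fun x => co (bm (algebraMap F K) b) (algebraMap k K ∘ x)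
  have hc : ∀ x x', c x * c x' - c x' * c x = c (adm M x *ᵥ x') := fun x x' => by
    rw [hM.co, adm_map]
    exact congrArg _ (funext fun i => (RingHom.map_mulVec _ _ _ i).symm)
  have c2 : ∀ x, c ((2 : k) • x) = (2 : K) • c x := fun x => by
    rw [← map_smul]
    exact congrArg (co _) (funext fun i => by simp [map_ofNat])
  have cn : ∀ x, c (-x) = -c x := fun x => by
    rw [← map_neg]
    exact congrArg (co _) (funext fun i => map_neg (algebraMap k K) _)
  obtain ⟨nX, nY, g, w, w0, hw⟩ := sl2 K _ (c p) (c y) (c q) (fun e => y0 (funext fun i =>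
    (algebraMap k K).injective ((congrFun (hb.inj (e.trans (map_zero _).symm)) i).trans
      (map_zero _).symm))) (by rw [hc, e1, c2]) (by rw [hc, e2, cn, c2]) (by rw [hc, e3])
  have k1 : ∀ x, IsNilpotent (c x) → ∃ u : K → D.grp K, (∀ t, (u t).1.1 = exp (t • c x)) ∧
      ∀ σ t, ρ (T.a σ (u t)) = ρ (u (σ t)) := fun x nx => by
    choose u hu using fun t : K => ex D hD K _ (Submodule.smul_mem _ t (hb.mem _)) (nx.smul t)
    have := fun t : K => rho_exp hb hM h.rp (x := t • algebraMap k K ∘ x)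
      (by rw [map_smul]; exact nx.smul t) (g := u t) (by rw [map_smul]; exact hu t)
    refine ⟨u, hu, fun σ t => ?_⟩
    rw [h.eqv, (this t).2, (this _).2]
    refine (map_exp (this t).1 (σ : K →+* K).mapMatrix).trans (congrArg exp ?_)
    ext i j
    simp [adm]
  obtain ⟨u, u1, u2⟩ := k1 y nX
  obtain ⟨v, v1, v2⟩ := k1 q nY
  obtain ⟨e, e0, he⟩ := cen D
  let l : Kˣ → D.grp K := fun s => u (s ^ 2).1 * v (-(s ^ 2)⁻¹.1) * u (s ^ 2).1 *
    (u (-1) * v 1 * u (-1))
  have l1 : ∀ s, (l s).1.1 * g.1 = g.1 * diagonal fun i => (s ^ w i).1 := fun s => by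
    rw [← hw s]
    simp only [l, Subgroup.coe_mul, Units.val_mul, u1, v1, neg_one_smul, one_smul]
  have l2 : ∀ σ s, ρ (T.a σ (l s)) = ρ (l (Units.map (σ : K →* K) s)) := fun σ s => by
    simp [l, u2, v2]
  refine w0 (smul_right_injective _ e0.ne' (Eq.trans (hA g (e • w) (fun s => l s ^ e)
    (fun s => ?_) fun σ s => ?_) (smul_zero e).symm))
  · show ((l s).1 ^ e).1 * _ = _
    rw [Units.val_pow_eq_pow_val, (SemiconjBy.pow_right (l1 s).symm e).eq.symm, diagonal_pow]
    congr 2
    funext i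
    rw [Pi.pow_apply, ← Units.val_pow_eq_pow_val, ← zpow_natCast, ← _root_.zpow_mul, mul_comm]
    simp
  · obtain ⟨z1, z2⟩ := he K (T.a σ (l s) * (l (Units.map (σ : K →* K) s))⁻¹) fun X hX => by
      obtain ⟨x, rfl⟩ := hb.surj hX
      rw [h.rp.co, map_mul, l2, ← map_mul, mul_inv_cancel, map_one, one_mulVec]
    rw [map_pow, ← inv_mul_cancel_right (T.a σ (l s)) (l (Units.map (σ : K →* K) s)),
      Commute.mul_pow (z1 _), z2, one_mul]

end Vale.Agent.P011UT6
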