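import Vale.Agent.P011UT4.Defs
import Mathlib.LinearAlgebra.Eigenspace.Triangularizable
import Mathlib.RingTheory.Nilpotent.Exp

/-!
The cocharacter of an `sl₂`-triple.
-/

set_option autoImplicit false
set_option linter.all false

namespace Vale.Agent.P011UT6

open Matrix Module Vale.Agent.P011UT4
open IsNilpotent hiding pow_succ

section

variable {K A : Type} [Field K] [CharZero K] [Ring A] [Algebra K A] [Module ℚ A]

/-- the commutator with `X` -/
def ad (K : Type) [Field K] [Algebra K A] (X : A) : End K A :=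
  LinearMap.mulLeft K X + LinearMap.mulRight K (-X)

omit [CharZero K] [Module ℚ A] in
theorem ad_app (X Z : A) : ad K X Z = X * Z - Z * X := by simp [ad, sub_eq_add_neg]

omit [CharZero K] [Module ℚ A] in
theorem ad_nil {X : A} (h : IsNilpotent X) : IsNilpotent (ad K X) :=
  (LinearMap.commute_mulLeft_right _ _).isNilpotent_add
    ((LinearMap.isNilpotent_mulLeft_iff _ _).2 h) ((LinearMap.isNilpotent_mulRight_iff _ _).2 h.neg)

theorem exp_ad {X : A} (h : IsNilpotent X) (Z : A) : exp (ad K X) Z = exp X * Z * exp (-X) := by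
  rw [ad, exp_add_of_commute (LinearMap.commute_mulLeft_right _ _)
    ((LinearMap.isNilpotent_mulLeft_iff _ _).2 h) ((LinearMap.isNilpotent_mulRight_iff _ _).2 h.neg)]
  obtain ⟨k, hk⟩ := h
  have h2 : (-X) ^ k = 0 := by rw [neg_pow, hk, mul_zero]
  rw [exp_eq_sum hk, exp_eq_sum h2, exp_eq_sum (k := k) (by rw [LinearMap.pow_mulLeft, hk]; simp),
    exp_eq_sum (k := k) (by rw [LinearMap.pow_mulRight, h2]; simp), mul_assoc, End.mul_apply]
  simp only [LinearMap.pow_mulLeft, LinearMap.pow_mulRight, LinearMap.sum_apply,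
    LinearMap.smul_apply, LinearMap.mulLeft_apply, LinearMap.mulRight_apply, Finset.sum_mul,
    Finset.mul_sum, smul_mul_assoc, mul_smul_comm, Finset.smul_sum, smul_smul]
  rw [Finset.sum_comm]
  simp only [mul_comm]

theorem ad3 (K : Type) [Field K] [CharZero K] [Algebra K A] {Z a b c : A} (h : IsNilpotent Z)
    (h1 : Z * a - a * Z = b) (h2 : Z * b - b * Z = c)
    (h3 : Z * c - c * Z = 0) : exp Z * a = (a + b + (2 : ℚ)⁻¹ • c) * exp Z := by
  have e := exp_smul_eq_sum (a := ad K Z) (m := a) (k := 3)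
    (by simp [pow_succ, ad_app, h1, h2, h3]) (ad_nil h)
  rw [End.smul_def, exp_ad h] at e
  simp only [Finset.sum_range_succ, Finset.range_zero, Finset.sum_empty, End.smul_def, pow_succ,
    pow_zero, End.mul_apply, End.one_apply, ad_app, h1, h2] at e
  rw [show a + b + (2 : ℚ)⁻¹ • c = exp Z * a * exp (-Z) by rw [e]; simp [Nat.factorial],
    mul_assoc, exp_neg_mul_exp_self h, mul_one]

end

section

variable {K n : Type} [Field K] [Fintype n] [DecidableEq n] {H : Matrix n n K}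

/-- generalised eigenvectors -/
def Ge (H : Matrix n n K) (μ : K) (v : n → K) : Prop := ∃ k : ℕ, (H - μ • 1) ^ k *ᵥ v = 0

theorem Ge.mv {X : Matrix n n K} {μ ν ε : K} {v : n → K} (h : Ge H μ v)
    (e : (H - ν • 1) * X = ε • (X * (H - μ • 1))) : Ge H ν (X *ᵥ v) := by
  obtain ⟨k, hk⟩ := h
  have : ∀ j : ℕ, (H - ν • 1) ^ j * X = ε ^ j • (X * (H - μ • 1) ^ j) := fun j => by
    induction j with
    | zero => simp
    | succ j ih => rw [pow_succ', mul_assoc, ih, Matrix.mul_smul, ← mul_assoc, e, Matrix.smul_mul,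
        smul_smul, mul_assoc, ← pow_succ', ← pow_succ]
  exact ⟨k, by rw [mulVec_mulVec, this, smul_mulVec, ← mulVec_mulVec, hk, mulVec_zero, smul_zero]⟩

theorem Ge.shift {X : Matrix n n K} {μ c : K} {v : n → K} (h : Ge H μ v)
    (e : H * X - X * H = c • X) : Ge H (μ + c) (X *ᵥ v) :=
  h.mv (ε := 1) (by
    simp only [Matrix.sub_mul, Matrix.mul_sub, Matrix.smul_mul, Matrix.mul_smul, Matrix.one_mul,
      Matrix.mul_one, sub_eq_iff_eq_add.1 e]
    module)

theorem Ge.eig {μ : K} {v : n → K} (h : Ge H μ v) (h0 : v ≠ 0) : ∃ w, w ≠ 0 ∧ H *ᵥ w = μ • w := by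
  obtain ⟨j, h1, h2⟩ := Nat.exists_not_and_succ_of_not_zero_of_exists
    (p := fun k => (H - μ • 1) ^ k *ᵥ v = 0) (by simpa using h0) h
  refine ⟨_, h1, ?_⟩
  rwa [pow_succ', ← mulVec_mulVec, sub_mulVec, smul_mulVec, one_mulVec, sub_eq_zero] at h2

theorem exists_ge [IsAlgClosed K] (H : Matrix n n K) : ∃ (g : GL n K) (μ : n → K),
    (∀ i, Ge H (μ i) (g.1 *ᵥ Pi.single i 1)) ∧ ∀ (c : K → K) ν v, Ge H ν v →
      (g.1 * diagonal (c ∘ μ) * g⁻¹.1) *ᵥ v = c ν • v := by
  classical
  let f : End K (n → K) := toLinAlgEquiv' H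
  have k : ∀ ν v, v ∈ f.maxGenEigenspace ν ↔ Ge H ν v := fun ν v => by
    rw [End.mem_maxGenEigenspace]
    refine exists_congr fun j => ?_
    rw [← toLinAlgEquiv'_apply, map_pow, map_sub, map_smul, map_one]
  have hd := DirectSum.isInternal_submodule_of_iSupIndep_of_iSup_eq_top
    f.independent_maxGenEigenspace f.iSup_maxGenEigenspace_eq_top
  let b := hd.collectedBasis fun ν => finBasis K (f.maxGenEigenspace ν)
  let e := b.indexEquiv (Pi.basisFun K n)
  obtain ⟨u, hu⟩ := (Matrix.linearIndependent_cols_iff_isUnit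
    (A := Matrix.of fun i j => b.reindex e j i)).1 (b.reindex e).linearIndependent
  have col : ∀ i, u.1 *ᵥ Pi.single i 1 = b (e.symm i) := fun i => by
    rw [hu, mulVec_single_one, ← b.reindex_apply]
    rfl
  refine ⟨u, fun i => (e.symm i).1, fun i => ?_, fun c ν v hv => ?_⟩
  · rw [col, ← k]
    exact hd.collectedBasis_mem _ _
  · have := (finBasis K (f.maxGenEigenspace ν)).ext
      (f₁ := (u.1 * diagonal (c ∘ fun i => (e.symm i).1) * u⁻¹.1).mulVecLin ∘ₗ Submodule.subtype _)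
      (f₂ := c ν • Submodule.subtype _) fun a => by
        have e1 := col (e ⟨ν, a⟩)
        rw [e.symm_apply_apply, DirectSum.IsInternal.collectedBasis_coe] at e1
        show _ *ᵥ (finBasis K (f.maxGenEigenspace ν) a).1 = c ν • (finBasis K _ a).1
        rw [← show _ = (finBasis K (f.maxGenEigenspace ν) a).1 from e1, mulVec_mulVec, mul_assoc, Units.inv_mul, mul_one, ← mulVec_mulVec,
          diagonal_mulVec_single, ← mulVec_smul, ← Pi.single_smul]
        simp
    exact LinearMap.congr_fun this ⟨v, (k _ _).2 hv⟩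

theorem ext_ge (g : GL n K) {X Y : Matrix n n K}
    (h : ∀ i, X *ᵥ (g.1 *ᵥ Pi.single i 1) = Y *ᵥ (g.1 *ᵥ Pi.single i 1)) : X = Y :=
  g.mul_left_inj.1 (Matrix.ext_of_mulVec_single fun i => by
    rw [← mulVec_mulVec, ← mulVec_mulVec, h])

variable [CharZero K]

theorem nil_of [IsAlgClosed K] {X : Matrix n n K} {c : K} (c0 : c ≠ 0)
    (e : H * X - X * H = c • X) : IsNilpotent X := by
  classical
  obtain ⟨g, μ, h1, h2⟩ := exists_ge H
  have hf : (⋃ p : n × n, {N : ℕ | μ p.1 + N * c = μ p.2}).Finite :=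
    Set.finite_iUnion fun p => Set.Subsingleton.finite fun a ha b hb =>
      Nat.cast_injective (R := K) (mul_right_cancel₀ c0 (add_left_cancel (ha.trans hb.symm)))
  obtain ⟨N, hN⟩ := hf.exists_notMem
  have k : ∀ i (j : ℕ), Ge H (μ i + j * c) (X ^ j *ᵥ (g.1 *ᵥ Pi.single i 1)) := fun i j => by
    induction j with
    | zero => simpa using h1 i
    | succ j ih =>
      rw [pow_succ', ← mulVec_mulVec, Nat.cast_succ, add_mul, one_mul, ← add_assoc]
      exact ih.shift e
  refine ⟨N, ext_ge g fun i => ?_⟩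
  have := h2 (fun ν => if ν ∈ Set.range μ then 1 else 0) _ _ (k i N)
  rw [if_neg fun ⟨j, hj⟩ => hN (Set.mem_iUnion.2 ⟨(i, j), hj.symm⟩), zero_smul,
    show (fun ν => if ν ∈ Set.range μ then (1 : K) else 0) ∘ μ = fun _ => 1 from
      funext fun j => if_pos ⟨j, rfl⟩, diagonal_one, mul_one, Units.mul_inv, one_mulVec] at this
  rw [this, zero_mulVec]

omit [CharZero K] in
theorem eig_pow {X : Matrix n n K} {c μ : K} (e : H * X - X * H = c • X) {w : n → K}
    (h : H *ᵥ w = μ • w) (j : ℕ) : H *ᵥ (X ^ j *ᵥ w) = (μ + j * c) • (X ^ j *ᵥ w) := by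
  induction j with
  | zero => simpa using h
  | succ j ih =>
    rw [pow_succ', ← mulVec_mulVec, mulVec_mulVec _ H, sub_eq_iff_eq_add.1 e, add_mulVec,
      smul_mulVec, ← mulVec_mulVec _ X H, ih, mulVec_smul, ← add_smul, Nat.cast_succ]
    congr 1
    ring

theorem int_of {X Y : Matrix n n K} (hX : H * X - X * H = (2 : K) • X)
    (hY : H * Y - Y * H = (-2 : K) • Y) (h : X * Y - Y * X = H) (nX : IsNilpotent X)
    (nY : IsNilpotent Y) {μ : K} {v : n → K} (hv : Ge H μ v) (v0 : v ≠ 0) : ∃ m : ℤ, μ = m := by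
  obtain ⟨w, w0, hw⟩ := hv.eig v0
  have l : ∀ {Z : Matrix n n K} {u : n → K}, IsNilpotent Z → u ≠ 0 →
      ∃ j, Z ^ j *ᵥ u ≠ 0 ∧ Z ^ (j + 1) *ᵥ u = 0 := fun {Z u} ⟨N, hN⟩ u0 =>
    Nat.exists_not_and_succ_of_not_zero_of_exists (p := fun k => Z ^ k *ᵥ u = 0)
      (by simpa using u0) ⟨N, by rw [hN, zero_mulVec]⟩
  obtain ⟨j, j1, j2⟩ := l nX w0
  have hu := eig_pow hX hw j
  rw [pow_succ', ← mulVec_mulVec] at j2
  generalize X ^ j *ᵥ w = u at j1 j2 hu
  have k : ∀ i : ℕ, X *ᵥ (Y ^ (i + 1) *ᵥ u) = ((i + 1) * (μ + j * 2 - i)) • (Y ^ i *ᵥ u) := by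
    intro i
    induction i with
    | zero => simpa [mulVec_mulVec, ← h, sub_mulVec, ← mulVec_mulVec u Y X, j2] using hu
    | succ i ih =>
      rw [pow_succ' Y (i + 1), ← mulVec_mulVec, mulVec_mulVec _ X, sub_eq_iff_eq_add.1 h,
        add_mulVec, ← mulVec_mulVec _ Y X, ih, eig_pow hY hu, mulVec_smul, mulVec_mulVec _ Y,
        ← pow_succ', ← add_smul]
      congr 1
      push_cast
      ring
  obtain ⟨i, i1, i2⟩ := l nY j1
  have := k i
  rw [i2, mulVec_zero, eq_comm, smul_eq_zero, mul_eq_zero] at this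
  refine ⟨i - j * 2, ?_⟩
  push_cast
  linear_combination (this.resolve_right i1).resolve_left (Nat.cast_add_one_ne_zero i)

end

theorem sl2 : SL2 := fun K n _ _ _ _ _ H X Y X0 hX hY h => by
  classical
  rw [← neg_smul] at hY
  have nX := nil_of two_ne_zero hX
  have nY := nil_of (neg_ne_zero.2 two_ne_zero) hY
  obtain ⟨g, μ, h1, h2⟩ := exists_ge H
  have c0 : ∀ i, g.1 *ᵥ Pi.single i 1 ≠ 0 := fun i e => by
    have := congrArg (g⁻¹.1 *ᵥ ·) e
    simp only [mulVec_mulVec, Units.inv_mul, one_mulVec, mulVec_zero] at this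
    simpa using congrFun this i
  choose m hm using fun i => int_of hX hY h nX nY (h1 i) (c0 i)
  have q : ∀ Z : Matrix n n K, (2 : ℚ)⁻¹ • (-2 : K) • Z = -Z := fun Z => by
    rw [neg_smul, two_smul, ← two_smul ℚ, smul_neg, smul_smul]
    simp
  have e1 := ad3 K nX (a := H) (b := (-2 : K) • X) (c := 0) (by rw [neg_smul, ← hX, neg_sub])
    (by simp) (by simp)
  have e2 := ad3 K nY.neg (a := H) (b := (-2 : K) • Y) (c := 0) (by rw [← hY]; noncomm_ring)
    (by simp) (by simp)
  have e3 := ad3 K nY.neg (a := X) (b := H) (c := (-2 : K) • Y) (by rw [← h]; noncomm_ring)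
    (by rw [← hY]; noncomm_ring) (by simp)
  have e4 := ad3 K nX (a := X) (b := 0) (c := 0) (by simp) (by simp) (by simp)
  rw [q] at e3
  simp only [smul_zero, add_zero] at e1 e2 e4
  obtain ⟨w, hw⟩ : ∃ w, w = exp X * exp (-Y) * exp X := ⟨_, rfl⟩
  have e5 : w * H = -(H * w) := by
    rw [hw, mul_assoc, e1, ← mul_assoc, mul_assoc (exp X), mul_add, e2, Matrix.mul_smul, e3,
      ← Matrix.smul_mul, ← add_mul, ← mul_assoc, show H + (-2 : K) • Y + (-2 : K) • (X + H + -Y) =
        -H + (-2 : K) • X by module, mul_add, mul_neg, e1, Matrix.mul_smul, e4]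
    simp only [add_mul, neg_mul, Matrix.smul_mul, mul_assoc]
    abel
  let c : Kˣ → K → K := fun s ν => if h : ∃ a : ℤ, ν = a then (s ^ h.choose).1 else 0
  have hc : ∀ s (a : ℤ), c s a = (s ^ a).1 := fun s a => by
    have : ∃ b : ℤ, (a : K) = b := ⟨a, rfl⟩
    simp only [c, dif_pos this, ← Int.cast_injective this.choose_spec]
  refine ⟨nX, nY, g, fun i => m i + m i, fun e => X0 (ext_ge g fun i => ?_), fun s => ?_⟩
  · have m0 : μ = 0 := funext fun j => by
      have : m j + m j = 0 := congrFun e j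
      rw [hm, show m j = 0 by omega, Int.cast_zero, Pi.zero_apply]
    have := h2 (fun ν => 2 - ν) _ _ ((h1 i).shift hX)
    rw [m0, show (fun ν : K => 2 - ν) ∘ (0 : n → K) = (2 : K) • fun _ => 1 by ext; simp,
      diagonal_smul, diagonal_one, Matrix.mul_smul, Matrix.smul_mul, mul_one, Units.mul_inv,
      smul_mulVec, one_mulVec] at this
    simpa using this
  let d : GL n K := ⟨diagonal fun i => (s ^ m i).1, diagonal fun i => (s ^ m i)⁻¹.1,
    by simp only [diagonal_mul_diagonal, Units.mul_inv, diagonal_one],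
    by simp only [diagonal_mul_diagonal, Units.inv_mul, diagonal_one]⟩
  let D := g * d * g⁻¹
  have hD : ∀ (a : ℤ) v, Ge H a v → D.1 *ᵥ v = (s ^ a).1 • v := fun a v hv => by
    rw [← hc, ← h2 (c s) a v hv, show c s ∘ μ = fun i => (s ^ m i).1 from
      funext fun i => by rw [Function.comp, hm, hc]]
    rfl
  have g1 : ∀ i, Ge H (m i) (g.1 *ᵥ Pi.single i 1) := fun i => hm i ▸ h1 i
  have sh : ∀ (Z : Matrix n n K) (a : ℤ) (t : K), IsNilpotent Z → H * Z - Z * H = (a : K) • Z →
      exp (((s ^ a).1 * t) • Z) = D.1 * exp (t • Z) * D⁻¹.1 := fun Z a t nZ e => by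
    have : D.1 * Z = (s ^ a).1 • Z * D.1 := ext_ge g fun i => by
      rw [← mulVec_mulVec, ← mulVec_mulVec, hD _ _ (g1 i), hD (m i + a) _ (by
        simpa using (g1 i).shift e), mulVec_smul, smul_mulVec, smul_smul, ← Units.val_mul,
        _root_.zpow_add]
    rw [← ConjAct.ofConjAct_toConjAct D, ← ConjAct.units_smul_def, ← exp_smul _ (nZ.smul t),
      ConjAct.units_smul_def, ConjAct.ofConjAct_toConjAct, Matrix.mul_smul, this, Matrix.smul_mul,
      mul_assoc, Units.mul_inv, mul_one, smul_smul, mul_comm t]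
  have dw : D.1 * w * D.1 = w := ext_ge g fun i => by
    rw [← mulVec_mulVec, ← mulVec_mulVec, hD _ _ (g1 i), mulVec_smul, mulVec_smul, hD (-m i) _
      ((g1 i).mv (ε := -1) (by
        simp only [Matrix.sub_mul, Matrix.mul_sub, Matrix.smul_mul, Matrix.mul_smul, e5,
          Matrix.one_mul, Matrix.mul_one, Int.cast_neg]
        module)), smul_smul, ← Units.val_mul, ← _root_.zpow_add, add_neg_cancel, zpow_zero,
      Units.val_one, one_smul]
  have s1 := sh X 2 1 nX (by simpa using hX)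
  have s2 := sh Y (-2) (-1) nY (by simpa using hY)
  rw [mul_one, one_smul, zpow_ofNat] at s1
  rw [mul_neg_one, neg_one_smul, _root_.zpow_neg, zpow_ofNat] at s2
  have i1 : w * (exp (-X) * exp Y * exp (-X)) = 1 := by
    rw [hw, mul_assoc, ← mul_assoc (exp X) (_ * _), ← mul_assoc (exp X) (exp (-X)),
      exp_mul_exp_neg_self nX, one_mul, mul_assoc, ← mul_assoc (exp (-Y)),
      exp_neg_mul_exp_self nY, one_mul, exp_mul_exp_neg_self nX]
  have i2 : w * D⁻¹.1 = D.1 * w := by
    conv_lhs => rw [← dw, mul_assoc, Units.mul_inv, mul_one]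
  rw [s1, s2, show D.1 * exp X * D⁻¹.1 * (D.1 * exp (-Y) * D⁻¹.1) * (D.1 * exp X * D⁻¹.1) =
    D.1 * (w * D⁻¹.1) by simp only [hw, mul_assoc, Units.inv_mul_cancel_left], i2, mul_assoc _ _
      (_ * _ * _), mul_assoc _ w, i1, mul_one, ← Units.val_mul, ← Units.val_mul,
    show D * D * g = g * (d * d) by simp only [D, mul_assoc, inv_mul_cancel_left, inv_mul_cancel,
      mul_one], Units.val_mul, Units.val_mul, diagonal_mul_diagonal]
  simp only [_root_.zpow_add, Units.val_mul]

end Vale.Agent.P011UT6
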